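import Crest.Agent.X212.Ell97.Est
import Crest.Agent.X212.Ell97.Hil
import Crest.Agent.X212.Wz78.Int

-- ▼ part X212/Ell97/HL
section

/-! Sobolev level: injectivity of the inclusions, estimates, weak solutions and their regularity. -/

set_option autoImplicit false
set_option linter.unusedSectionVars false
noncomputable section
open scoped Manifold ContDiff Topology InnerProductSpace
open MeasureTheory Set Function Filter

namespace Crest.Agent.X212.Ell97
open An An.Pre Sob92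

variable {E : Type} [NormedAddCommGroup E] [NormedSpace ℝ E] [FiniteDimensional ℝ E]
  [MeasurableSpace E] [BorelSpace E]
  {HM : Type} [TopologicalSpace HM] {I : ModelWithCorners ℝ E HM}
  {M : Type} [TopologicalSpace M] [ChartedSpace HM M] [IsManifold I ∞ M]
  [MeasurableSpace M] {ι : Type} [Fintype ι]
  {U V W : Type} [NormedAddCommGroup U] [InnerProductSpace ℝ U]
  [NormedAddCommGroup V] [InnerProductSpace ℝ V] [NormedAddCommGroup W] [InnerProductSpace ℝ W]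
  [T2Space M] [BorelSpace M]

theorem H_ext {F : Pre I M ι} {k : ℕ} {p : M → V →L[ℝ] V} {x y : F.H k p}
    (h : ∀ φ, ⟪x, F.toH k p φ⟫_ℝ = ⟪y, F.toH k p φ⟫_ℝ) : x = y :=
  ext_inner_right ℝ fun z => H_eq (f := fun z => ⟪x, z⟫_ℝ) (g := fun z => ⟪y, z⟫_ℝ)
    (by fun_prop) (by fun_prop) h z

theorem ip_to_zero (F : Fr I M ι) (k : ℕ) :
    ∀ φ : T I M V, ∃ ψ : T I M V, ∀ u : T I M V, F.ip k u.1 φ.1 = (scl V F.toPre).ip u ψ := by
  induction k with
  | zero => exact fun φ => ⟨φ, fun u => (scl_ip u φ).symm⟩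
  | succ k ih =>
    intro φ
    choose ψ hψ using fun a => ih (DT F.toPre a φ)
    refine ⟨φ + ∑ a, Ds F a (ψ a), fun u => ?_⟩
    rw [map_add, map_sum, Pre.ip, scl_ip]
    congr 1
    exact Finset.sum_congr rfl fun a _ => (hψ a (DT F.toPre a u)).trans (ip_D F a u _)

/-- **The inclusions are injective.** -/
theorem incl_inj (F : Fr I M ι) {k j : ℕ} (h : j ≤ k) (p : M → V →L[ℝ] V) :
    Injective (F.incl k j p) := by
  refine (injective_iff_map_eq_zero _).2 fun x hx => ?_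
  have h0 : F.incl k 0 _ (fg F.toPre k p x) = 0 := by
    rw [Rep_incl rep_fg rep_fg (Nat.zero_le k) (Nat.zero_le k), ← incl_incl h (Nat.zero_le j), hx,
      map_zero, map_zero]
  refine fg_injective (H_ext fun φ => ?_)
  obtain ⟨ψ, hψ⟩ := ip_to_zero F k φ
  have h1 := H_eq (F := F.toPre) (f := fun y => ⟪y, F.toH k _ φ⟫_ℝ)
    (g := fun y => ⟪F.incl k 0 (triv M V) y, F.toH 0 _ ψ⟫_ℝ) (by fun_prop) (by fun_prop)
    (fun u => by rw [incl_toH (Nat.zero_le k), inner_toH]; exact hψ u) (fg F.toPre k p x)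
  simp only [h1, h0, map_zero, inner_zero_left]

theorem memLp_T (F : Pre I M ι) (u : T I M V) : MemLp u.1 2 F.μ :=
  u.2.1.continuous.memLp_of_hasCompactSupport u.2.2.1

/-- the class of a test function -/
def toLp (F : Pre I M ι) : T I M V →ₗ[ℝ] Lp V 2 F.μ where
  toFun u := (memLp_T F u).toLp u.1
  map_add' u v := MemLp.toLp_add (memLp_T F u) (memLp_T F v)
  map_smul' r u := MemLp.toLp_const_smul r (memLp_T F u)

theorem inner_toLp (F : Pre I M ι) (y : Lp V 2 F.μ) (u : T I M V) :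
    ⟪y, toLp F u⟫_ℝ = ∫ x, ⟪y x, u.1 x⟫_ℝ ∂F.μ := by
  rw [L2.inner_def]
  refine integral_congr_ae ?_
  filter_upwards [(memLp_T F u).coeFn_toLp] with x hx
  exact congrArg _ hx

theorem toLp_inner (F : Pre I M ι) (u v : T I M V) : ⟪toLp F u, toLp F v⟫_ℝ = F.ip 0 u.1 v.1 := by
  rw [inner_toLp]
  refine integral_congr_ae ?_
  filter_upwards [(memLp_T F u).coeFn_toLp] with x hx
  exact congrArg (fun z => ⟪z, v.1 x⟫_ℝ) hx

/-- every element of `H 0` is represented by an `L²` function -/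
theorem exists_L2 [FiniteDimensional ℝ V] (F : Pre I M ι) (y : F.H 0 (triv M V)) :
    ∃ u : M → V, MemLp u 2 F.μ ∧ ∀ φ : T I M V, ⟪y, F.toH 0 _ φ⟫_ℝ = ∫ x, ⟪u x, φ.1 x⟫_ℝ ∂F.μ := by
  have := FiniteDimensional.complete ℝ V
  obtain ⟨A, hA, -⟩ := exists_ext (F := F) (k := 0) (toLp (V := V) F) zero_le_one fun u => by
    rw [norm_eq_sqrt_real_inner, toLp_inner, one_mul, Pre.nrm]
  refine ⟨A y, Lp.memLp _, fun φ => ?_⟩
  rw [← inner_toLp]
  exact H_eq (f := fun y => ⟪y, F.toH 0 _ φ⟫_ℝ) (g := fun y => ⟪A y, toLp F φ⟫_ℝ) (by fun_prop)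
    (by fun_prop) (fun u => by rw [hA, toLp_inner, inner_toH]) y

variable (V) in
/-- interior regularity for weak solutions of `Δ u = (first order) u + f` -/
def Reg (F : Fr I M ι) : Prop :=
  ∀ (u : M → V) (ua : ι → M → V) (σ : ι → M → V →L[ℝ] V) (B : M → V →L[ℝ] V) (f : M → V),
    MemLp u 2 F.μ → (∀ a, MemLp (ua a) 2 F.μ) → (∀ a, Sm I (σ a)) → Sm I B → Sm I f →
    (∀ a (φ : M → V), Sm I φ → HasCompactSupport φ →
      ∫ x, ⟪ua a x, φ x⟫_ℝ ∂F.μ = ∫ x, ⟪u x, -F.D a φ x - F.dv a x • φ x⟫_ℝ ∂F.μ) →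
    (∀ φ : M → V, Sm I φ → HasCompactSupport φ →
      ∑ a, ∫ x, ⟪ua a x, F.D a φ x⟫_ℝ ∂F.μ = ∫ x, ⟪f x, φ x⟫_ℝ ∂F.μ +
        ∑ a, ∫ x, ⟪ua a x, σ a x (φ x)⟫_ℝ ∂F.μ + ∫ x, ⟪u x, B x (φ x)⟫_ℝ ∂F.μ) →
    ∃ w : M → V, Sm I w ∧ u =ᵐ[F.μ] w

variable [SecondCountableTopology M]
  {F : Fr I M ι} {A : Op M ι V W} {s : ι → M → W →L[ℝ] V} {B' : M → W →L[ℝ] V} {C : ℕ → ℝ}

theorem H_toH (h : A.Good F C) (k : ℕ) (u : Sec I A.p) :
    A.H F k (F.toH (k + 1) A.p u) = F.toH k A.q (LS h u) := RepT_toH (rep_OpH h k).1 u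

theorem Du.adjH (h : Du F A s B' C) (x : F.H 1 A.p) (y : F.H 1 A.q) :
    ⟪A.H F 0 x, F.incl 1 0 A.q y⟫_ℝ = ⟪F.incl 1 0 A.p x, (dual A s B').H F 0 y⟫_ℝ := by
  induction x, y using H_ind₂ with
  | hP => exact isClosed_eq (by fun_prop) (by fun_prop)
  | h u w =>
    rw [H_toH h.g, H_toH h.g', incl_toH zero_le_one, incl_toH zero_le_one, inner_toH, inner_toH]
    exact h.adj u w

variable (F A s B') in
/-- `1 + L* L` -/
def QH (k : ℕ) : F.H (k + 2) A.p →L[ℝ] F.H k A.p :=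
  (F.incl (k + 1) k A.p).comp (F.incl (k + 2) (k + 1) A.p) +
    ((dual A s B').H F k).comp (A.H F (k + 1))

/-- `1 + L* L` on sections -/
def Du.QS (h : Du F A s B' C) (u : Sec I A.p) : Sec I A.p := u + LS h.g' (LS h.g u)

theorem Du.QH_toH (h : Du F A s B' C) (k : ℕ) (u : Sec I A.p) :
    QH F A s B' k (F.toH (k + 2) A.p u) = F.toH k A.p (h.QS u) := by
  rw [QH, _root_.add_apply, ContinuousLinearMap.comp_apply, ContinuousLinearMap.comp_apply,
    incl_toH (by omega), incl_toH (by omega), H_toH h.g, H_toH h.g', Du.QS, map_add]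

/-- **Estimates on the Sobolev spaces**, uniform in the family. -/
theorem estH_fam {J : Type*} {F : J → Fr I M ι} {A : J → Op M ι V W}
    {s : J → ι → M → W →L[ℝ] V} {B' : J → M → W →L[ℝ] V}
    (h : ∀ j, Du (F j) (A j) (s j) (B' j) C) :
    ∃ K : ℕ → ℝ, (∀ k, 0 ≤ K k) ∧ ∀ j k,
      (∀ x : (F j).H (k + 1) (A j).p,
        ‖x‖ ≤ K k * (‖(A j).H (F j) k x‖ + ‖(F j).incl (k + 1) 0 (A j).p x‖)) ∧
      ∀ x : (F j).H (k + 2) (A j).p, ‖x‖ ≤ K k * ‖QH (F j) (A j) (s j) (B' j) k x‖ := by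
  obtain ⟨K, hK, h1⟩ := est_fam h
  refine ⟨K, hK, fun j k => ⟨fun x => ?_, fun x => ?_⟩⟩
  · induction x using H_ind with
    | hP => exact isClosed_le (by fun_prop) (by fun_prop)
    | h u =>
      rw [H_toH (h j).g, incl_toH (Nat.zero_le _), norm_toH, norm_toH, norm_toH]
      exact (h1 j k u).1
  · induction x using H_ind with
    | hP => exact isClosed_le (by fun_prop) (by fun_prop)
    | h u =>
      rw [(h j).QH_toH, norm_toH, norm_toH]
      exact (h1 j k u).2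

theorem Du.estH (h : Du F A s B' C) : ∃ K : ℕ → ℝ, (∀ k, 0 ≤ K k) ∧ ∀ k,
    (∀ x : F.H (k + 1) A.p, ‖x‖ ≤ K k * (‖A.H F k x‖ + ‖F.incl (k + 1) 0 A.p x‖)) ∧
      ∀ x : F.H (k + 2) A.p, ‖x‖ ≤ K k * ‖QH F A s B' k x‖ :=
  let ⟨K, hK, h1⟩ := estH_fam (J := Unit) fun _ => h; ⟨K, hK, h1 ()⟩

variable (F A) in
/-- the Dirichlet form -/
def bt : F.H 1 A.p →L[ℝ] F.H 1 A.p →L[ℝ] ℝ :=
  (innerSL ℝ : F.H 0 A.p →L[ℝ] F.H 0 A.p →L[ℝ] ℝ).bilinearComp (F.incl 1 0 A.p) (F.incl 1 0 A.p) +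
    (innerSL ℝ : F.H 0 A.q →L[ℝ] F.H 0 A.q →L[ℝ] ℝ).bilinearComp (A.H F 0) (A.H F 0)

theorem bt_apply (x y : F.H 1 A.p) : bt F A x y =
    ⟪F.incl 1 0 A.p x, F.incl 1 0 A.p y⟫_ℝ + ⟪A.H F 0 x, A.H F 0 y⟫_ℝ := rfl

theorem Du.bt_toH (h : Du F A s B' C) (u v : Sec I A.p) :
    bt F A (F.toH 1 A.p u) (F.toH 1 A.p v) = ⟪F.toH 0 A.p (h.QS u), F.toH 0 A.p v⟫_ℝ := by
  rw [bt_apply, Du.QS, map_add, inner_add_left, incl_toH zero_le_one, incl_toH zero_le_one,
    H_toH h.g 0 u, ← incl_toH zero_le_one (LS h.g u), real_inner_comm (A.H F 0 _), h.adjH,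
    incl_toH zero_le_one]
  congr 1
  rw [real_inner_comm]
  exact congrArg (fun z => ⟪z, F.toH 0 A.p v⟫_ℝ) (H_toH h.g' 0 (LS h.g u))

theorem Du.coercive (h : Du F A s B' C) : IsCoercive (bt F A) := by
  obtain ⟨K, hK, h1⟩ := h.estH
  refine ⟨(2 * K 0 ^ 2 + 1)⁻¹, by positivity, fun x => ?_⟩
  have h2 := (h1 0).1 x
  rw [bt_apply, real_inner_self_eq_norm_sq, real_inner_self_eq_norm_sq, mul_assoc,
    inv_mul_le_iff₀ (by positivity)]
  have h3 := mul_self_le_mul_self (norm_nonneg x) h2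
  nlinarith [mul_nonneg (sq_nonneg (K 0)) (sq_nonneg (‖A.H F 0 x‖ - ‖F.incl 1 0 A.p x‖))]

/-- **Lax-Milgram** -/
theorem Du.weak (h : Du F A s B' C) (g : F.H 0 A.p) :
    ∃ x, ∀ y, bt F A x y = ⟪g, F.incl 1 0 A.p y⟫_ℝ := by
  refine ⟨h.coercive.continuousLinearEquivOfBilin.symm ((F.incl 1 0 A.p).adjoint g), fun y => ?_⟩
  rw [← h.coercive.continuousLinearEquivOfBilin_apply, ContinuousLinearEquiv.apply_symm_apply,
    ContinuousLinearMap.adjoint_inner_left]

theorem Du.bt_incl (h : Du F A s B' C) (k : ℕ) (x : F.H (k + 2) A.p) (y : F.H 1 A.p) :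
    bt F A (F.incl (k + 2) 1 A.p x) y = ⟪F.incl k 0 A.p (QH F A s B' k x), F.incl 1 0 A.p y⟫_ℝ := by
  induction x, y using H_ind₂ with
  | hP => exact isClosed_eq (by fun_prop) (by fun_prop)
  | h u v =>
    rw [incl_toH (by omega), h.bt_toH, h.QH_toH, incl_toH (Nat.zero_le k), incl_toH zero_le_one]

variable [FiniteDimensional ℝ V]

/-- the weak equation against all test functions -/
theorem Du.weak_eq (h : Du F A s B' C) : ∃ (σ : ι → M → V →L[ℝ] V) (B : M → V →L[ℝ] V)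
    (hσ : ∀ a, Sm I (σ a)) (hB : Sm I B), ∀ (x : F.H 1 A.p) (φ : T I M V),
    ∑ a, ⟪DH F.toPre 0 A.p a x, F.toH 0 _ (DT F.toPre a φ)⟫_ℝ =
      bt F A x (F.toH 1 A.p (prj h.g.p φ)) +
      ∑ a, ⟪DH F.toPre 0 A.p a x, F.toH 0 _ (mul (σ a) (hσ a) φ)⟫_ℝ +
      ⟪fg F.toPre 0 A.p (F.incl 1 0 A.p x), F.toH 0 _ (mul B hB φ)⟫_ℝ := by
  obtain ⟨σ, B, hσ, hB, hR⟩ := fo_R (J := Unit) fun _ => h
  have h1 : ∀ a, Sm I fun x => Op.tr (σ () a x) := fun a => ((hσ a).clm (trL V V)).sm ()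
  have h2 : Sm I fun x => Op.tr (B () x) := (hB.clm (trL V V)).sm ()
  refine ⟨_, fun x => Op.tr (B () x) - A.p x, h1, h2.sub h.g.p.cb.1, fun x φ => ?_⟩
  induction x using H_ind with
  | hP => exact isClosed_eq (by fun_prop) (by fun_prop)
  | h u =>
    have e1 : ∀ a, DH F.toPre 0 A.p a (F.toH 1 A.p u) = F.toH 0 _ (DT F.toPre a (toT _ u)) :=
      fun a => RepT_toH (rep_DH a) u
    have e2 : fg F.toPre 0 A.p (F.toH 0 A.p u) = F.toH 0 _ (toT _ u) := RepT_toH rep_fg u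
    have e3 : h.R (toT _ u) = opT F.toPre (σ ()) (B ()) (fun a => (hσ a).sm ()) (hB.sm ())
        (toT _ u) := Subtype.ext (funext fun x => by rw [hR () _ x, opT_val]; rfl)
    have e4 := ip_lap (ip_D F) (toT _ u) φ
    have e5 : mul (fun x => Op.tr (B () x) - A.p x) (h2.sub h.g.p.cb.1) φ =
        mul _ h2 φ - mul A.p h.g.p.cb.1 φ := rfl
    rw [h.lap_eq, map_add, LinearMap.add_apply, (scl V F.toPre).symm _ φ, ← h.adjT, e3, opT_apply,
      map_add, map_sum, LinearMap.add_apply, LinearMap.sum_apply,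
      ip_mul (hB.sm ()) h2 fun x v w => (inner_tr _ v w).symm] at e4
    simp only [fun a => ip_mul (F := F.toPre) ((hσ a).sm ()) (h1 a)
      fun x v w => (inner_tr _ v w).symm, LinearMap.comp_apply, mul_toT] at e4
    have e6 : bt F A (F.toH 1 A.p u) (F.toH 1 A.p (prj h.g.p φ)) =
        (scl V F.toPre).ip (toT _ u) (mul A.p h.g.p.cb.1 φ) +
        (scl W F.toPre).ip (LT h.g (mul A.p h.g.p.cb.1 φ)) (LT h.g (toT _ u)) := by
      rw [bt_apply, H_toH h.g, H_toH h.g, incl_toH zero_le_one, incl_toH zero_le_one, inner_toH,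
        inner_toH, scl_ip, scl_ip, LT_val, LT_val, F.ip_comm 0 (LS h.g u).1]
      rfl
    simp only [e1, incl_toH zero_le_one, e2, e5, e6, map_sub, inner_sub_right]
    change ∑ a, (scl V F.toPre).ip _ _ = _ + ∑ a, (scl V F.toPre).ip _ _ +
      ((scl V F.toPre).ip _ _ - (scl V F.toPre).ip _ _)
    simp only [scl_D] at e4
    linarith

/-- the section `χ u` -/
def cut {p : M → V →L[ℝ] V} {χ : M → ℝ} (hχ : Sm I χ) (u : Sec I p) : Sec I p :=
  ⟨fun x => χ x • u.1 x, hχ.smul u.2.1, u.2.2.1.mono fun x hx h => hx (by simp [h]),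
    fun x => (map_smul (p x) _ _).trans (by rw [u.2.2.2 x])⟩

theorem smulH_toH {p : M → V →L[ℝ] V} {χ : M → ℝ} {C' : ℕ → ℝ} (hχ : F.CBs χ C') (k : ℕ)
    (u : Sec I p) : smulH F.toPre k p χ (F.toH k p u) = F.toH k p (cut hχ.1 u) :=
  RepT_toH (rep_smulH ⟨_, hχ⟩) u

/-- **Weak solutions are locally smooth.** -/
theorem Du.loc_smooth (h : Du F A s B' C) (hr : Reg V F) {x : F.H 1 A.p} {f : Sec I A.p}
    (hx : ∀ y, bt F A x y = ⟪F.toH 0 A.p f, F.incl 1 0 A.p y⟫_ℝ) {χ : M → ℝ} {C' : ℕ → ℝ}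
    (hχ : F.CBs χ C') (hc : HasCompactSupport χ) :
    ∃ v : Sec I A.p, smulH F.toPre 1 A.p χ x = F.toH 1 A.p v := by
  obtain ⟨σ, B, hσ, hB, he⟩ := h.weak_eq
  obtain ⟨u, hu, hu'⟩ := exists_L2 F.toPre (fg F.toPre 0 A.p (F.incl 1 0 A.p x))
  choose ua hua hua' using fun a => exists_L2 F.toPre (DH F.toPre 0 A.p a x)
  obtain ⟨w, hw, huw⟩ := hr u ua σ B f.1 hu hua hσ hB f.2.1 (fun a φ h1 h2 => by
    refine (hua' a (tst φ h1 h2)).symm.trans (Eq.trans ?_ (hu' (Ds F a (tst φ h1 h2))))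
    clear hx hu' hua'
    induction x using H_ind with
    | hP => exact isClosed_eq (by fun_prop) (by fun_prop)
    | h v =>
      rw [RepT_toH (rep_DH a), incl_toH zero_le_one, RepT_toH rep_fg]
      exact ip_D F a (toT _ v) (tst φ h1 h2)) (fun φ h1 h2 => by
    have h3 := he x (tst φ h1 h2)
    rw [hx, incl_toH zero_le_one, inner_toH] at h3
    simp only [hua', hu'] at h3
    refine h3.trans ?_
    congr 2
    refine integral_congr_ae (.of_forall fun y => ?_)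
    change ⟪f.1 y, A.p y (φ y)⟫_ℝ = ⟪f.1 y, φ y⟫_ℝ
    rw [← h.g.p.symm, f.2.2.2 y])
  refine ⟨prj h.g.p (tst (fun y => χ y • w y) (hχ.1.smul hw) hc.smul_right),
    incl_inj F zero_le_one _ (H_ext fun φ => ?_)⟩
  have e1 : ∀ z : F.H 1 A.p, ⟪F.incl 1 0 A.p (smulH F.toPre 1 A.p χ z), F.toH 0 A.p φ⟫_ℝ =
      ⟪fg F.toPre 0 A.p (F.incl 1 0 A.p z), F.toH 0 _ (toT _ (cut hχ.1 φ))⟫_ℝ := fun z => by
    induction z using H_ind with
    | hP => exact isClosed_eq (by fun_prop) (by fun_prop)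
    | h v =>
      rw [smulH_toH hχ, incl_toH zero_le_one, incl_toH zero_le_one, RepT_toH rep_fg, inner_toH,
        inner_toH]
      simp only [Pre.ip, cut, toT_val, id, real_inner_smul_left, real_inner_smul_right]
  rw [e1, hu', incl_toH zero_le_one, inner_toH]
  refine integral_congr_ae ?_
  filter_upwards [huw] with y hy
  change ⟪u y, χ y • φ.1 y⟫_ℝ = ⟪A.p y (χ y • w y), φ.1 y⟫_ℝ
  rw [h.g.p.symm, φ.2.2.2 y, hy, real_inner_smul_left, real_inner_smul_right]

end Crest.Agent.X212.Ell97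
end
end

-- ▼ part X212/Ell97/Res
section

/-! `1 + L* L` is onto on every level; the Hilbert scales of an operator of Dirac type. -/

set_option autoImplicit false
set_option linter.unusedSectionVars false
noncomputable section
open scoped Manifold ContDiff Topology InnerProductSpace
open MeasureTheory Set Function Filter

namespace Crest.Agent.X212.Ell97
open An An.Pre Sob92

variable {E : Type} [NormedAddCommGroup E] [NormedSpace ℝ E] [FiniteDimensional ℝ E]
  [MeasurableSpace E] [BorelSpace E]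
  {HM : Type} [TopologicalSpace HM] {I : ModelWithCorners ℝ E HM}
  {M : Type} [TopologicalSpace M] [ChartedSpace HM M] [IsManifold I ∞ M]
  [MeasurableSpace M] {ι : Type} [Fintype ι]
  {U V W : Type} [NormedAddCommGroup U] [InnerProductSpace ℝ U]
  [NormedAddCommGroup V] [InnerProductSpace ℝ V] [NormedAddCommGroup W] [InnerProductSpace ℝ W]
  {F : Fr I M ι} {A : Op M ι V W} {s : ι → M → W →L[ℝ] V} {B' : M → W →L[ℝ] V} {C : ℕ → ℝ}

variable (F A) in
/-- the symbol on `dχ` -/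
def sy (χ : M → ℝ) : M → V →L[ℝ] W := fun x => ∑ a, F.D a χ x • A.σ a x

theorem app_smul {χ : M → ℝ} (hχ : Sm I χ) {u : M → V} (hu : Sm I u) (x : M) :
    A.app F (fun y => χ y • u y) x = χ x • A.app F u x + sy F A χ x (u x) := by
  have e : ∀ a, F.D a (fun y => χ y • u y) x = F.D a χ x • u x + χ x • F.D a u x :=
    fun a => dv_smul (md hχ x) (md hu x)
  simp only [Op.app, Pre.op, e, sy, map_add, map_smul, Finset.sum_add_distrib, smul_add,
    Finset.smul_sum, _root_.sum_apply, _root_.smul_apply]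
  abel

theorem ub_sy {J : Type*} {F : J → Fr I M ι} {A : J → Op M ι V W} (h : ∀ j, (A j).Good (F j) C)
    {χ : J → M → ℝ} (hχ : UB (fun j => (F j).toPre) χ) :
    UB (fun j => (F j).toPre) fun j => sy (F j) (A j) (χ j) :=
  UB.sum fun a => (hχ.D a).smul ⟨C, fun j => (h j).σ a⟩

theorem cb_sy (h : A.Good F C) {χ : M → ℝ} (hχ : F.Cb χ) : F.Cb (sy F A χ) :=
  let ⟨C1, h1⟩ := hχ
  let ⟨C2, h2⟩ := ub_sy (J := Unit) (fun _ => h) ⟨C1, fun _ => h1⟩
  ⟨C2, h2 ()⟩

variable [T2Space M] [BorelSpace M] [SecondCountableTopology M]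

theorem maps_sy (h : A.Good F C) (χ : M → ℝ) : Maps A.p A.q (sy F A χ) :=
  Maps.of_left fun x v => by
    simp only [sy, _root_.sum_apply, _root_.smul_apply, map_sum, map_smul, h.qσ]

theorem app_add {u v : M → V} (hu : Sm I u) (hv : Sm I v) (x : M) :
    A.app F (u + v) x = A.app F u x + A.app F v x := by
  simp only [Op.app, Pre.op, F.D_add hu hv, Pi.add_apply, map_add, Finset.sum_add_distrib]
  abel

theorem sm_app (h : A.Good F C) {u : M → V} (hu : Sm I u) : Sm I (A.app F u) :=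
  sm_op (fun a => (h.σ a).1) h.B.1 hu

variable (F A s B') in
/-- the commutator of `L* L` with a cut-off function -/
def CmH (χ : M → ℝ) (k : ℕ) : F.H (k + 1) A.p →L[ℝ] F.H k A.p :=
  ((dual A s B').H F k).comp (F.mulH (k + 1) A.p A.q (sy F A χ)) +
    (F.mulH k A.q A.p (sy F (dual A s B') χ)).comp (A.H F k)

theorem Du.CmH_toH (h : Du F A s B' C) {χ : M → ℝ} {C' : ℕ → ℝ} (hχ : F.CBs χ C') (k : ℕ)
    (u : Sec I A.p) : CmH F A s B' χ k (F.toH (k + 1) A.p u) =
      F.toH k A.p (h.QS (cut hχ.1 u) - cut hχ.1 (h.QS u)) := by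
  refine RepT_toH' (RepT_add (RepT_comp (rep_OpH h.g' k).1
    (rep_mulH (cb_sy h.g ⟨_, hχ⟩) (maps_sy h.g χ))) (RepT_comp
      (rep_mulH (cb_sy h.g' ⟨_, hχ⟩) (maps_sy h.g' χ)) (rep_OpH h.g k).1)) u _ (funext fun x => ?_)
  have e1 : A.app F (fun y => χ y • u.1 y) =
      (fun y => χ y • A.app F u.1 y) + fun y => sy F A χ y (u.1 y) :=
    funext fun y => app_smul hχ.1 u.2.1 y
  change _ = χ x • u.1 x + (dual A s B').app F (A.app F fun y => χ y • u.1 y) x -
    χ x • (u.1 x + (dual A s B').app F (A.app F u.1) x)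
  rw [e1, app_add (u := fun y => χ y • A.app F u.1 y) (hχ.1.smul (sm_app h.g u.2.1))
    ((cb_sy h.g ⟨_, hχ⟩).choose_spec.1.clm_apply u.2.1), app_smul hχ.1 (sm_app h.g u.2.1),
    Pi.add_apply, smul_add]
  abel

theorem Du.norm_CmH (h : Du F A s B' C) (k : ℕ) :
    ∃ c : ℝ, 0 ≤ c ∧ ∀ χ, F.CBs χ C → ∀ x, ‖CmH F A s B' χ k x‖ ≤ c * ‖x‖ := by
  have hχ : UB (J := {χ : M → ℝ // F.CBs χ C}) (fun _ => F.toPre) fun j => j.1 := ⟨C, fun j => j.2⟩
  obtain ⟨C1, h1⟩ := ub_sy (A := fun _ => A) (fun _ => h.g) hχ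
  obtain ⟨C2, h2⟩ := ub_sy (A := fun _ => dual A s B') (fun _ => h.g') hχ
  have := cK_nonneg (ι := ι) k
  have := cK_nonneg (ι := ι) (k + 1)
  refine ⟨‖(dual A s B').H F k‖ * (cK ι (k + 1) * |C1 (k + 1)|) + cK ι k * |C2 k| * ‖A.H F k‖,
    by positivity, fun χ hc x => ContinuousLinearMap.le_of_opNorm_le _ ?_ x⟩
  have h3 := norm_mulH_le (h1 ⟨χ, hc⟩).1 ((h1 ⟨χ, hc⟩).2 (k + 1)) (maps_sy h.g χ)
  have h4 := norm_mulH_le (h2 ⟨χ, hc⟩).1 ((h2 ⟨χ, hc⟩).2 k) (maps_sy h.g' χ)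
  refine (norm_add_le _ _).trans (add_le_add ?_ ?_)
  · exact (ContinuousLinearMap.opNorm_comp_le _ _).trans
      (mul_le_mul_of_nonneg_left h3 (norm_nonneg _))
  · exact (ContinuousLinearMap.opNorm_comp_le _ _).trans
      (mul_le_mul_of_nonneg_right h4 (norm_nonneg _))

theorem Du.incl_CmH (h : Du F A s B' C) {χ : M → ℝ} {C' : ℕ → ℝ} (hχ : F.CBs χ C') (k : ℕ)
    (x : F.H (k + 1) A.p) :
    F.incl k 0 A.p (CmH F A s B' χ k x) = CmH F A s B' χ 0 (F.incl (k + 1) 1 A.p x) := by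
  induction x using H_ind with
  | hP => exact isClosed_eq (by fun_prop) (by fun_prop)
  | h u => rw [h.CmH_toH hχ, incl_toH (Nat.zero_le k), incl_toH (by omega), h.CmH_toH hχ]

theorem inner_cut {p : M → V →L[ℝ] V} {χ : M → ℝ} (hχ : Sm I χ) (u v : Sec I p) :
    ⟪F.toH 0 p (cut hχ u), F.toH 0 p v⟫_ℝ = ⟪F.toH 0 p u, F.toH 0 p (cut hχ v)⟫_ℝ := by
  simp only [inner_toH, Pre.ip, cut, real_inner_smul_left, real_inner_smul_right]

variable [FiniteDimensional ℝ V]

theorem Du.bt_smul (h : Du F A s B' C) {χ : M → ℝ} {C' : ℕ → ℝ} (hχ : F.CBs χ C')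
    (x : F.H 1 A.p) (φ : Sec I A.p) : bt F A (smulH F.toPre 1 A.p χ x) (F.toH 1 A.p φ) =
      bt F A x (F.toH 1 A.p (cut hχ.1 φ)) + ⟪CmH F A s B' χ 0 x, F.toH 0 A.p φ⟫_ℝ := by
  induction x using H_ind with
  | hP => exact isClosed_eq (by fun_prop) (by fun_prop)
  | h u =>
    rw [smulH_toH hχ, h.bt_toH, h.bt_toH, h.CmH_toH hχ, map_sub, inner_sub_left, inner_cut]
    ring

theorem cut_eq {p : M → V →L[ℝ] V} {χ : M → ℝ} (hχ : Sm I χ) {u : Sec I p}
    (h : ∀ x ∈ tsupport u.1, χ x = 1) : cut hχ u = u := by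
  refine Subtype.ext (funext fun x => ?_)
  by_cases hx : x ∈ tsupport u.1
  · simp [cut, h x hx]
  · simp [cut, image_eq_zero_of_notMem_tsupport hx]

theorem Du.mem_range (h : Du F A s B' C) (hr : Reg V F) (k : ℕ) {x : F.H (k + 1) A.p}
    {f : Sec I A.p}
    (hx : ∀ y, bt F A (F.incl (k + 1) 1 A.p x) y = ⟪F.toH 0 A.p f, F.incl 1 0 A.p y⟫_ℝ) :
    F.toH k A.p f ∈ range (QH F A s B' k) := by
  obtain ⟨K, hK, hK'⟩ := h.estH
  obtain ⟨c, hc, hc'⟩ := h.norm_CmH k
  rw [← (Fred93.isClosed_range_of_bound (hK' k).2).closure_eq, Metric.mem_closure_iff]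
  intro ε hε
  obtain ⟨φ, hφ⟩ := (F.dense_toH (k + 1) A.p).exists_dist_lt x
    (show 0 < ε / (c + 1) by positivity)
  obtain ⟨χ, hχ, hcs, -, h1⟩ := h.tame.exh _
    ((φ.2.2.1.isCompact.union f.2.2.1.isCompact).union (h.QS φ).2.2.1.isCompact)
  obtain ⟨v, hv⟩ := h.loc_smooth hr hx hχ hcs
  have e1 : F.toH k A.p (h.QS v) = F.toH k A.p f + CmH F A s B' χ k x := by
    refine incl_inj F (Nat.zero_le k) _ (H_ext fun ψ => ?_)
    rw [incl_toH (Nat.zero_le k), ← h.bt_toH, ← hv, h.bt_smul hχ, hx, incl_toH zero_le_one,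
      ← inner_cut, cut_eq hχ.1 fun y hy => h1 y (Or.inl (Or.inr hy)), map_add,
      incl_toH (Nat.zero_le k), h.incl_CmH hχ, inner_add_left]
  have e2 : CmH F A s B' χ k (F.toH (k + 1) A.p φ) = 0 := by
    rw [h.CmH_toH hχ, cut_eq hχ.1 fun y hy => h1 y (Or.inl (Or.inl hy)),
      cut_eq hχ.1 fun y hy => h1 y (Or.inr hy), sub_self, map_zero]
  refine ⟨_, ⟨F.toH (k + 2) A.p v, rfl⟩, ?_⟩
  have h2 := hc' χ hχ (x - F.toH (k + 1) A.p φ)
  rw [map_sub, e2, sub_zero, ← dist_eq_norm] at h2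
  rw [h.QH_toH, e1, dist_self_add_right]
  rw [lt_div_iff₀ (by positivity)] at hφ
  nlinarith [dist_nonneg (x := x) (y := F.toH (k + 1) A.p φ)]

/-- **`1 + L* L` is onto.** -/
theorem Du.surj (h : Du F A s B' C) (hr : Reg V F) (k : ℕ) : Surjective (QH F A s B' k) := by
  have key : ∀ k (f : Sec I A.p), F.toH k A.p f ∈ range (QH F A s B' k) := by
    intro k
    induction k with
    | zero =>
      intro f
      obtain ⟨x, hx⟩ := h.weak (F.toH 0 A.p f)
      exact h.mem_range hr 0 (x := x) fun y => by rw [incl_self, hx]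
    | succ k ih =>
      intro f
      obtain ⟨x, hx⟩ := ih f
      exact h.mem_range hr (k + 1) (x := x) fun y => by
        rw [h.bt_incl, hx, incl_toH (Nat.zero_le k)]
  obtain ⟨K, -, hK'⟩ := h.estH
  exact fun y => H_ind (P := fun y => y ∈ range (QH F A s B' k)) y
    (Fred93.isClosed_range_of_bound (hK' k).2) (key k)

/-- the Hilbert scales of the data -/
def Du.half (h : Du F A s B' C) (hr : Reg V F) :
    Half (fun k => F.H k A.p) (fun k => F.H k A.q) where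
  i k := F.incl (k + 1) k A.p
  j k := F.incl (k + 1) k A.q
  L k := A.H F k
  Ls k := (dual A s B').H F k
  i_inj k := incl_inj F k.le_succ _
  j_inj k := incl_inj F k.le_succ _
  Li k := incl_OpH h.g k.le_succ
  Lsj k := incl_OpH h.g' k.le_succ
  adj := h.adjH
  surjX := h.surj hr

omit [FiniteDimensional ℝ V] in
theorem dn0_incl (p : M → V →L[ℝ] V) (k : ℕ) (x : F.H k p) :
    dn0 (X := fun k => F.H k p) (fun k => F.incl (k + 1) k p) k x = F.incl k 0 p x := by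
  induction k with
  | zero => exact (incl_self x).symm
  | succ k ih => rw [dn0_succ, ih, incl_incl k.le_succ (Nat.zero_le k)]

omit [FiniteDimensional ℝ V] in
theorem dn1_incl (p : M → V →L[ℝ] V) (k : ℕ) (x : F.H (k + 1) p) :
    dn1 (X := fun k => F.H k p) (fun k => F.incl (k + 1) k p) k x = F.incl (k + 1) 1 p x := by
  induction k with
  | zero => exact (incl_self x).symm
  | succ k ih => rw [dn1_succ, ih, incl_incl (by omega) (by omega)]

variable [FiniteDimensional ℝ W] {C' : ℕ → ℝ}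

variable (F A) in
/-- the formal adjoint on Sobolev spaces, with the bundles of `A` in its type -/
abbrev Hs (k : ℕ) : F.H (k + 1) A.q →L[ℝ] F.H k A.p := (A.adj F).H F k

variable (F A) in
/-- `1 + A* A` -/
abbrev Qa (k : ℕ) : F.H (k + 2) A.p →L[ℝ] F.H k A.p := QH F A (A.adj F).σ (A.adj F).B k

theorem Qa_apply (k : ℕ) (x : F.H (k + 2) A.p) :
    Qa F A k x = F.incl (k + 2) k A.p x + Hs F A k (A.H F (k + 1) x) := by
  rw [← incl_incl (j := k + 1) (by omega) (by omega)]; rfl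

theorem du_of (hF : F.Tame C) (hA : A.Good F C') : ∃ C'' : ℕ → ℝ,
    (A.CliffL F → Du F A (A.adj F).σ (A.adj F).B C'') ∧
      ((A.adj F).CliffL F → Du F (A.adj F) A.σ A.B C'') :=
  let ⟨C'', h⟩ := du_fam (J := Unit) (C := fun k => max (C k) (C' k))
    (fun _ => Tame_mono hF fun _ => le_max_left _ _) fun _ => Good_mono hA fun _ => le_max_right _ _
  ⟨C'', h ()⟩

theorem good_adj (hF : F.Tame C) (hA : A.Good F C') : ∃ C'', (A.adj F).Good F C'' :=
  let ⟨C'', _, h⟩ := good_adj_fam (J := Unit) (C := fun k => max (C k) (C' k))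
    (fun _ => Tame_mono hF fun _ => le_max_left _ _) fun _ => Good_mono hA fun _ => le_max_right _ _
  ⟨C'', h ()⟩

/-- **The scales of an operator with injective conformal symbol.** -/
def half (hr : Reg V F) (hF : F.Tame C) (hA : A.Good F C') (hc : A.CliffL F) :
    Half (fun k => F.H k A.p) (fun k => F.H k A.q) :=
  ((du_of hF hA).choose_spec.1 hc).half hr

/-- **The scales of an operator of Dirac type.** -/
def pair (hr : Reg V F) (hr' : Reg W F) (hF : F.Tame C) (hA : A.Good F C') (hc : A.Cliff F) :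
    Pair (fun k => F.H k A.p) (fun k => F.H k A.q) where
  toHalf := half hr hF hA hc.1
  surjY := ((du_of hF hA).choose_spec.2 hc.2).surj hr'

section
variable (hr : Reg V F) (hF : F.Tame C) (hA : A.Good F C') (hc : A.CliffL F) (k : ℕ)

@[simp] theorem half_i : (half hr hF hA hc).i k = F.incl (k + 1) k A.p := rfl
@[simp] theorem half_j : (half hr hF hA hc).j k = F.incl (k + 1) k A.q := rfl
@[simp] theorem half_L : (half hr hF hA hc).L k = A.H F k := rfl
@[simp] theorem half_Ls : (half hr hF hA hc).Ls k = Hs F A k := rfl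
@[simp] theorem half_Q : (half hr hF hA hc).Q k = Qa F A k := rfl

end

variable (I M V W) in
/-- **Uniform estimates**: Gårding and resolvent. -/
theorem est_unif (C : ℕ → ℝ) : ∃ K : ℕ → ℝ, (∀ k, 0 ≤ K k) ∧
    ∀ (F : Fr I M ι) (A : Op M ι V W), F.Tame C → A.Good F C → A.CliffL F → ∀ k,
      (∀ x : F.H (k + 1) A.p, ‖x‖ ≤ K k * (‖A.H F k x‖ + ‖F.incl (k + 1) 0 A.p x‖)) ∧
      ∀ x : F.H (k + 2) A.p, ‖x‖ ≤ K k * ‖Qa F A k x‖ := by
  let J := {d : Fr I M ι × Op M ι V W // d.1.Tame C ∧ d.2.Good d.1 C ∧ d.2.CliffL d.1}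
  obtain ⟨C', h⟩ := du_fam (J := J) (F := fun j => j.1.1) (A := fun j => j.1.2) (fun j => j.2.1)
    fun j => j.2.2.1
  obtain ⟨K, hK, h1⟩ := estH_fam fun j : J => (h j).1 j.2.2.2
  exact ⟨K, hK, fun F A h2 h3 h4 k => h1 ⟨(F, A), h2, h3, h4⟩ k⟩

end Crest.Agent.X212.Ell97
end
end

-- ▼ part X212/Ell97/Nab

/-! The covariant derivative as a first order operator; `1 + ∇*∇` on the Sobolev scale. -/

set_option autoImplicit false
set_option linter.unusedSectionVars false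
noncomputable section
open scoped Manifold ContDiff Topology InnerProductSpace
open MeasureTheory Set Function Filter

namespace Crest.Agent.X212.Ell97
open An An.Pre Sob92

variable {E : Type} [NormedAddCommGroup E] [NormedSpace ℝ E] [FiniteDimensional ℝ E]
  [MeasurableSpace E] [BorelSpace E]
  {HM : Type} [TopologicalSpace HM] {I : ModelWithCorners ℝ E HM}
  {M : Type} [TopologicalSpace M] [ChartedSpace HM M] [IsManifold I ∞ M]
  [MeasurableSpace M] {ι : Type} [Fintype ι]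
  {V : Type} [NormedAddCommGroup V] [InnerProductSpace ℝ V]

variable (ι V) in
/-- one-forms -/
abbrev F1 : Type := PiLp 2 fun _ : ι => V

variable (V) in
/-- a component -/
def pj (b : ι) : F1 ι V →L[ℝ] V := PiLp.proj 2 (fun _ : ι => V) b

open Classical in
variable (V) in
/-- the inclusion of a component -/
def ij (b : ι) : V →L[ℝ] F1 ι V :=
  (PiLp.continuousLinearEquiv 2 ℝ fun _ : ι => V).symm.toContinuousLinearMap ∘L
    ContinuousLinearMap.single ℝ (fun _ : ι => V) b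

@[simp] theorem pj_apply (b : ι) (w : F1 ι V) : pj V b w = w b := rfl

open Classical in
theorem ij_apply (b c : ι) (v : V) : ij V b v c = if c = b then v else 0 := by
  change (Pi.single b v : ι → V) c = _
  rw [Pi.single_apply]

theorem sum_ij (f : ι → V) (c : ι) : (∑ b, ij V b (f b)) c = f c := by
  rw [← pj_apply, map_sum, Finset.sum_eq_single c (fun b _ hb => by simp [ij_apply, hb.symm])
    (by simp)]
  simp [ij_apply]

theorem inner_ij (b : ι) (v : V) (w : F1 ι V) : ⟪ij V b v, w⟫_ℝ = ⟪v, pj V b w⟫_ℝ := by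
  rw [PiLp.inner_apply, Finset.sum_eq_single b (fun c _ hc => by simp [ij_apply, hc]) (by simp)]
  simp [ij_apply]

variable (F : Fr I M ι) (A : ι → M → V →L[ℝ] V)

/-- the covariant derivative -/
def nabOp : Op M ι V (F1 ι V) where
  p := triv M V
  q := triv M (F1 ι V)
  σ a x := ∑ b, F.P a b x • ij V b
  B x := ∑ b, (ij V b).comp (A b x)

variable (V) in
/-- the symbol of its adjoint -/
def nabS (a : ι) (x : M) : F1 ι V →L[ℝ] V := -∑ b, F.P a b x • pj V b

/-- the zero order part of its adjoint -/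
def nabB (x : M) : F1 ι V →L[ℝ] V := -∑ b, ((A b x).comp (pj V b) + F.dv b x • pj V b)

theorem nabOp_app (u : M → V) (x : M) :
    (nabOp F A).app F u x = ∑ b, ij V b (Wz78.nab I F.e A b u x) := by
  simp only [Op.app, Pre.op, nabOp, _root_.sum_apply, _root_.smul_apply,
    ContinuousLinearMap.comp_apply, Wz78.nab, map_add, Finset.sum_add_distrib]
  congr 1
  rw [Finset.sum_comm]
  refine Finset.sum_congr rfl fun b _ => ?_
  rw [← F.D_def, ← sum_P_D F b u x, map_sum]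
  simp only [map_smul, F.P_symm b]

theorem nabOp_app_apply (u : M → V) (x : M) (b : ι) :
    (nabOp F A).app F u x b = Wz78.nab I F.e A b u x := by rw [nabOp_app, sum_ij]

theorem nabDual_app {w : M → F1 ι V} (hw : Sm I w) (x : M) :
    (dual (nabOp F A) (nabS V F) (nabB F A)).app F w x =
      -∑ b, (Wz78.nab I F.e A b (fun y => w y b) x + F.dv b x • w x b) := by
  have e : ∀ b, Sob92.dv I (F.e b) (fun y => w y b) x = ∑ a, F.P a b x • F.D a w x b := fun b => by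
    have h := congrArg (pj V b) (sum_P_D F b w x)
    simp only [map_sum, map_smul, F.P_symm b] at h
    exact (dv_clm (pj V b) (md hw x)).trans h.symm
  simp only [Op.app, Pre.op, nabS, nabB, _root_.sum_apply, _root_.smul_apply, _root_.neg_apply,
    _root_.add_apply, ContinuousLinearMap.comp_apply, Wz78.nab, Finset.sum_add_distrib, e,
    pj_apply, Finset.sum_neg_distrib]
  rw [Finset.sum_comm]
  abel

theorem nab_nab {u : M → V} (hA : ∀ a, Sm I (A a)) (hu : Sm I u) (x : M) :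
    (dual (nabOp F A) (nabS V F) (nabB F A)).app F ((nabOp F A).app F u) x =
      Wz78.lap I F.e F.dv A u x := by
  have h : Sm I ((nabOp F A).app F u) := sm_op (fun a => contMDiff_finsetSum fun b _ =>
    (F.P_sm a b).smul contMDiff_const) (contMDiff_finsetSum fun b _ =>
      contMDiff_const.clm_comp (hA b)) hu
  rw [nabDual_app F A h]
  simp only [nabOp_app_apply]
  rfl

theorem isProj_triv (F : Pre I M ι) {C : ℕ → ℝ} (hC : ∀ k, 1 ≤ C k) : F.IsProj (triv M V) C :=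
  ⟨⟨contMDiff_const, fun k => CB_mono (CB_const k _)
    (ContinuousLinearMap.norm_id_le.trans (hC k))⟩, fun _ _ => rfl, fun _ _ _ => rfl⟩

variable [T2Space M] [BorelSpace M]

theorem du_nab_fam {J : Type*} {F : J → Fr I M ι} {A : J → ι → M → V →L[ℝ] V} {C : ℕ → ℝ}
    (hF : ∀ j, (F j).Tame C) (hA : ∀ j a, (F j).CBs (A j a) C)
    (hs : ∀ j a x, Wz78.Skew (A j a x)) :
    ∃ C', ∀ j, Du (F j) (nabOp (F j) (A j)) (nabS V (F j)) (nabB (F j) (A j)) C' := by
  have hP : ∀ a b, UB (fun j => (F j).toPre) fun j => (F j).P a b :=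
    fun a b => ⟨C, fun j => (hF j).P a b⟩
  have hA' : ∀ a, UB (fun j => (F j).toPre) fun j => A j a := fun a => ⟨C, fun j => hA j a⟩
  obtain ⟨C1, h1⟩ := UB.unif fun a => UB.sum fun (b : ι) => (hP a b).smul (UB.const (ij V b))
  obtain ⟨C2, h2⟩ := UB.sum fun (b : ι) => (UB.const (ij V b)).comp (hA' b)
  obtain ⟨C3, h3⟩ := UB.unif fun a => (UB.sum fun (b : ι) => (hP a b).smul (UB.const (pj V b))).neg
  obtain ⟨C4, h4⟩ := (UB.sum fun (b : ι) => ((hA' b).comp (UB.const (pj V b))).add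
    (UB.smul ⟨C, fun j => (hF j).dv b⟩ (UB.const (pj V b)))).neg
  have hi := fun j x => (Wz78.frPr (F j) x).idem
  refine ⟨fun k => max (max (max 1 (C k)) (C1 k)) (max (C2 k) (max (C3 k) (C4 k))), fun j =>
    ⟨Tame_mono (hF j) fun k => by simp,
      ⟨isProj_triv _ fun k => by simp, isProj_triv _ fun k => by simp,
        fun a => CBs_mono (h1 j a) fun k => by simp, CBs_mono (h2 j) fun k => by simp,
        fun _ _ _ => rfl, fun _ _ _ => rfl, fun _ _ => rfl, fun a x => ?_⟩,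
      ⟨isProj_triv _ fun k => by simp, isProj_triv _ fun k => by simp,
        fun a => CBs_mono (h3 j a) fun k => by simp, CBs_mono (h4 j) fun k => by simp,
        fun _ _ _ => rfl, fun _ _ _ => rfl, fun _ _ => rfl, fun a x => ?_⟩,
      fun (u : T I M V) (w : T I M (F1 ι V)) => ?_, fun a b x v => ?_⟩⟩
  · simp only [nabOp, Finset.smul_sum, smul_smul]
    rw [Finset.sum_comm]
    simp only [← Finset.sum_smul, hi j x]
  · simp only [nabS, smul_neg, Finset.smul_sum, smul_smul, Finset.sum_neg_distrib]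
    rw [Finset.sum_comm]
    simp only [← Finset.sum_smul, hi j x]
  · have e : ∀ b, (scl (F1 ι V) (F j).toPre).ip (mul (fun _ => ij V b) contMDiff_const
        (DT (F j).toPre b u + mul _ (hA j b).1 u)) w = (scl V (F j).toPre).ip u
        (Ds (F j) b (mul (fun _ => pj V b) contMDiff_const w) -
          mul _ (hA j b).1 (mul (fun _ => pj V b) contMDiff_const w)) := fun b => by
      rw [ip_mul _ contMDiff_const fun _ v w => inner_ij b v w, map_add, LinearMap.add_apply,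
        map_sub, ← ip_D, ip_mul (hA j b).1 (hA j b).1.neg (fun x v w => by simpa using hs j b x v w),
        sub_eq_add_neg, ← map_neg]
      rfl
    have e2 := Finset.sum_congr rfl fun b (_ : b ∈ Finset.univ) => e b
    rw [← LinearMap.sum_apply, ← map_sum, ← map_sum, scl_ip, scl_ip] at e2
    simp only [sum_val] at e2
    simp only [Pre.ip, nabOp_app, nabDual_app (F j) (A j) w.2.1, ← Finset.sum_neg_distrib]
    refine e2.trans (integral_congr_ae (.of_forall fun x => congrArg _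
      (Finset.sum_congr rfl fun b _ => ?_)))
    change -(F j).D b (fun y => w.1 y b) x - (F j).dv b x • w.1 x b - A j b x (w.1 x b) =
      -((F j).D b (fun y => w.1 y b) x + A j b x (w.1 x b) + (F j).dv b x • w.1 x b)
    abel
  · have e : ∀ a b, nabS V (F j) a x ((nabOp (F j) (A j)).σ b x v) = -((F j).P a b x • v) :=
      fun a b => by
      simp only [nabS, nabOp, _root_.sum_apply, _root_.smul_apply, _root_.neg_apply, pj_apply,
        ← map_smul, sum_ij, smul_smul, ← Finset.sum_smul, (F j).P_symm b, hi j x]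
    rw [e, e, (F j).P_symm b a]
    change _ = (-2 : ℝ) • (F j).P a b x • v
    module

variable [SecondCountableTopology M]

/-- `1 + ∇*∇` on the Sobolev scale -/
def lapH (k : ℕ) : F.H (k + 2) (triv M V) →L[ℝ] F.H k (triv M V) :=
  F.lift (k + 2) k _ _ fun u x => u x + Wz78.lap I F.e F.dv A u x

variable {F A} {C C' : ℕ → ℝ}

theorem du_nab (hF : F.Tame C) (hA : ∀ a, F.Cb (A a)) (hs : ∀ a x, Wz78.Skew (A a x)) :
    ∃ C', Du F (nabOp F A) (nabS V F) (nabB F A) C' := by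
  obtain ⟨C1, h1⟩ := UB.unif (J := Unit) (F := fun _ => F.toPre) (f := fun a _ => A a)
    fun a => let ⟨c, h⟩ := hA a; ⟨c, fun _ => h⟩
  obtain ⟨C', h⟩ := du_nab_fam (J := Unit) (C := fun k => max (C k) (C1 k))
    (fun _ => Tame_mono hF fun _ => le_max_left _ _)
    (fun _ a => CBs_mono (h1 () a) fun _ => le_max_right _ _) fun _ => hs
  exact ⟨C', h ()⟩

theorem Du.rep_lap (h : Du F (nabOp F A) (nabS V F) (nabB F A) C) (hA : ∀ a, Sm I (A a)) (k : ℕ) :
    F.Rep (QH F (nabOp F A) (nabS V F) (nabB F A) k) fun u x => u x + Wz78.lap I F.e F.dv A u x :=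
  fun u => ⟨h.QS u, funext fun x => congrArg (u.1 x + ·) (nab_nab F A hA u.2.1 x), h.QH_toH k u⟩

theorem Du.lapH_eq (h : Du F (nabOp F A) (nabS V F) (nabB F A) C) (hA : ∀ a, Sm I (A a)) (k : ℕ) :
    lapH F A k = QH F (nabOp F A) (nabS V F) (nabB F A) k := (h.rep_lap hA k).liftT_eq

theorem rep_lapH (hF : F.Tame C) (hA : ∀ a, F.Cb (A a)) (hs : ∀ a x, Wz78.Skew (A a x)) (k : ℕ) :
    F.Rep (lapH F A k) fun u x => u x + Wz78.lap I F.e F.dv A u x := by
  obtain ⟨C', h⟩ := du_nab hF hA hs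
  have h1 : ∀ a, Sm I (A a) := fun a => (hA a).choose_spec.1
  rw [h.lapH_eq h1]
  exact h.rep_lap h1 k

variable (I M V) in
/-- **Uniform resolvent and Gårding estimates for the connection Laplacian.** -/
theorem lap_unif (C : ℕ → ℝ) : ∃ K : ℕ → ℝ, (∀ k, 0 ≤ K k) ∧
    ∀ (F : Fr I M ι) (A : ι → M → V →L[ℝ] V), F.Tame C → (∀ a, F.CBs (A a) C) →
      (∀ a x, Wz78.Skew (A a x)) → ∀ k (x : F.H (k + 2) (triv M V)), ‖x‖ ≤ K k * ‖lapH F A k x‖ := by
  let J := {d : Fr I M ι × (ι → M → V →L[ℝ] V) //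
    d.1.Tame C ∧ (∀ a, d.1.CBs (d.2 a) C) ∧ ∀ a x, Wz78.Skew (d.2 a x)}
  obtain ⟨C', h⟩ := du_nab_fam (J := J) (F := fun j => j.1.1) (A := fun j => j.1.2)
    (fun j => j.2.1) (fun j => j.2.2.1) fun j => j.2.2.2
  obtain ⟨K, hK, h1⟩ := estH_fam h
  refine ⟨K, hK, fun F A h2 h3 h4 k x => ?_⟩
  rw [(h ⟨(F, A), h2, h3, h4⟩).lapH_eq fun a => (h3 a).1]
  exact (h1 ⟨(F, A), h2, h3, h4⟩ k).2 x

variable [FiniteDimensional ℝ V]

/-- the scales of the covariant derivative -/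
def nabHalf (hr : Reg V F) (hF : F.Tame C) (hA : ∀ a, F.Cb (A a))
    (hs : ∀ a x, Wz78.Skew (A a x)) :
    Half (fun k => F.H k (triv M V)) (fun k => F.H k (triv M (F1 ι V))) :=
  (du_nab hF hA hs).choose_spec.half hr

theorem nabHalf_Q (hr : Reg V F) (hF : F.Tame C) (hA : ∀ a, F.Cb (A a))
    (hs : ∀ a x, Wz78.Skew (A a x)) (k : ℕ) : (nabHalf hr hF hA hs).Q k = lapH F A k :=
  ((du_nab hF hA hs).choose_spec.lapH_eq (fun a => (hA a).choose_spec.1) k).symm

@[simp] theorem nabHalf_i (hr : Reg V F) (hF : F.Tame C) (hA : ∀ a, F.Cb (A a))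
    (hs : ∀ a x, Wz78.Skew (A a x)) (k : ℕ) :
    (nabHalf hr hF hA hs).i k = F.incl (k + 1) k (triv M V) := rfl

/-- **`1 + ∇*∇` is bijective.** -/
theorem lapH_bij (hr : Reg V F) (hF : F.Tame C) (hA : ∀ a, F.Cb (A a))
    (hs : ∀ a x, Wz78.Skew (A a x)) (k : ℕ) : Bijective (lapH F A k) :=
  nabHalf_Q hr hF hA hs k ▸ (nabHalf hr hF hA hs).Q_bij k

end Crest.Agent.X212.Ell97
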